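import Vale.Agent.P269L.T.Gd
import Vale.Agent.P269.Br.Wd

/-!
# The charts of the statement are good
-/

set_option linter.unusedSectionVars false

namespace Vale.Agent.P269L.T

open Set Function Topology Filter Module MvPolynomial P291Z P269 P269.Ch P269.Holo

variable {R J K ι ν ν₀ κ : Type} [Fintype R] [Fintype J] [Fintype K] [Fintype ι] [DecidableEq ι]
  [Fintype ν] [Fintype ν₀] [Fintype κ]

/-- The Kuranishi data of the statement. -/
noncomputable def kdT (ch : Ch ι J) (ν : Type) [Fintype ν] (T : Tgt R J K) (e : K → ι → ℕ) :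
    KD (ch.A ν) (ch.W ν) (ch.P K) :=
  ⟨ρ, ch.pol T e, fun x => Submodule.span ℂ (van T e x), fun x => Submodule.span ℂ (obs T e x),
    sct T e⟩

variable {ch : Ch ι J} {T : Tgt R J K} {χ : K → R → ℤ} {e : K → ι → ℕ}

section

variable [IsEmpty ν₀] [IsEmpty κ]

theorem vanM_trW (x : ch.W ν) : (vanM (T.fam χ) e (ch.trW ν ν₀ κ x) : Set _) = van T e x :=
  Set.ext fun _ => by rw [SetLike.mem_coe, ← mem_vanF, vanF_trW]

theorem obsM_trW (x : ch.W ν) : (obsM (T.fam χ) e (ch.trW ν ν₀ κ x) : Set _) = obs T e x :=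
  Set.ext fun _ => by rw [SetLike.mem_coe, ← mem_obsF, obsF_trW]

theorem kd_pb : (ch.kd _ κ (T.fam χ) e).pb (ch.trA ν ν₀ κ) (ch.trW ν ν₀ κ) = kdT ch ν T e := by
  simp only [KD.pb, ρF_trA, polF_fam, sctF_trW, kdT, ← vanM_trW (ν₀ := ν₀) (κ := κ) (χ := χ),
    ← obsM_trW (ν₀ := ν₀) (κ := κ) (χ := χ), Submodule.span_eq]

end

theorem coe_van (x : ch.W ν) : ((kdT ch ν T e).van x : Set _) = van T e x := by
  rw [← kd_pb (ν₀ := Empty) (κ := Empty) (χ := 0)]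
  exact vanM_trW x

theorem coe_obs (x : ch.W ν) : ((kdT ch ν T e).obs x : Set _) = obs T e x := by
  rw [← kd_pb (ν₀ := Empty) (κ := Empty) (χ := 0)]
  exact obsM_trW x

theorem mem_van {x : ch.W ν} {f : ch.P K} : f ∈ (kdT ch ν T e).van x ↔ f ∈ van T e x :=
  Set.ext_iff.1 (coe_van x) f

theorem mem_obs {x : ch.W ν} {f : ch.P K} : f ∈ (kdT ch ν T e).obs x ↔ f ∈ obs T e x :=
  Set.ext_iff.1 (coe_obs x) f

theorem isVir_iff {β : BM (ch.Mod ν T)} :
    ch.IsVir ν T e β ↔ (kdT ch ν T e).Stm act (ch.sol ν T) (ch.base ν) β := by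
  rw [← kd_pb (ν₀ := Empty) (κ := Empty) (χ := 0)]
  exact Ch.isVir_iff

/-- The chart of the statement is good. -/
def IsKur (ch : Ch ι J) (ν : Type) [Fintype ν] (T : Tgt R J K) (e : K → ι → ℕ) : Prop :=
  ∃ O v r d, Kur (kdT ch ν T e) act (ch.sol ν T) (ch.base ν) O v r d

theorem main_fam [IsEmpty ν₀] [IsEmpty κ] {u : ν ⊕ ν₀ → J → ℕ} :
    ch.main κ (T.fam χ) u = ch.cyc κ (T.fam χ) u :=
  (subset_antisymm (fun _ h => h.1.1) fun _ h => ⟨⟨h, fun _ a => (a trivial).elim,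
    fun _ _ => trivial, fun _ a => a.elim, fun _ a => (a trivial).elim⟩,
      fun _ a => (a trivial).elim⟩).trans cyc_fam.symm

theorem isKur [IsEmpty ν₀] [IsEmpty κ] {u : ν ⊕ ν₀ → J → ℕ} {K₀ ℓ U n}
    (h : ch.Std (T.fam χ) e K₀ ℓ) (c : Vm (ch := ch) (κ := κ) (T.fam χ) e u U n)
    [CompactSpace (ModS (T.fam χ) (ch.cyc κ (T.fam χ) u))] : IsKur ch ν T e := by
  rw [Vm, main_fam] at c
  obtain ⟨v, a⟩ := kur_of_vd h c
  have l := tr_act (ch := ch) (ν := ν) (ν₀ := ν₀) (κ := κ) (T.fam χ).toWt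
  have b := a.pb (act' := act) ⟨l.one, l.mul, l.eqv⟩ (fun _ => trW_sol) fun _ => trW_cyc
  rw [kd_pb] at b
  exact ⟨_, v, _, n, b⟩

/-- **The charts of the statement are good.** -/
theorem isKur_chart [DecidableEq R] (h : (T.fam χ).Tg) {k : ℕ} (hk : (T.fam χ).Big k) (g : ℤ)
    (d : R → ℤ) (n : ℕ) : ∀ᶠ D in atTop, IsKur (T.chart g n d k D) (Fin n) T
      fun q o => (T.F q).totalDegree * ∑ j, (T.chart g n d k D).b j o := by
  have H : ∀ m, Fintype.card (Ch.Mk (Fin n ⊕ Fin 0) (Fin 0)) = m → ∀ᶠ D in atTop,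
      IsKur (T.chart g m d k D) (Fin n) T ((T.fam χ).tdeg (T.chart g m d k D)) := by
    rintro _ rfl
    obtain ⟨K₀, b, -, -, h1⟩ := h.nice.vd (Fin 0) hk g d (0 : Fin n ⊕ Fin 0 → ℕ)
    filter_upwards [h1] with D ⟨hD, U, N, c1, c2⟩
    have := Cpt.compactSpace_mod (ν := Fin n ⊕ Fin 0) (κ := Fin 0) (g := g) (d := d) h.toGood hk hD
      rfl (T := univ) (by rw [← h.B, h.B_eq]; exact isCompact_singleton) h.B.ge
      (fun _ _ => ⟨1, isUnit_one, trivial⟩) fun n => (0 : Fin _ ⊕ Fin 0 → ℕ) n • 0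
    exact @isKur _ _ _ _ _ _ _ _ _ _ _ _ _ _ _ _ _ _ _ _ _ _ _ _ _ _ c1.toStd c2 this
  refine (H n (by simp [Ch.Mk])).mono fun D a => ?_
  rwa [show (fun q o => (T.F q).totalDegree * ∑ j, (T.chart g n d k D).b j o) =
    (T.fam χ).tdeg (T.chart g n d k D) from funext₂ fun q o =>
      congrArg (Finset.sup · _ * _) (support_map_of_injective _ (C_injective _ _)).symm]

theorem isKur_chart' [DecidableEq R] (h : (T.fam χ).Tg) {k : ℕ} (hk : (T.fam χ).Big k) (g : ℤ)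
    (d : R → ℤ) (n : ℕ) : ∀ᶠ k' in atTop, ∀ᶠ D in atTop, IsKur (T.chart g n d k' D) (Fin n) T
      fun q o => (T.F q).totalDegree * ∑ j, (T.chart g n d k' D).b j o :=
  (eventually_ge_atTop k).mono fun _ b => isKur_chart h (hk.mono b) g d n

end Vale.Agent.P269L.T
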