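import Vale.Agent.P269L.T.Bun
import Vale.Agent.P269.Bas.RelG
import Vale.Agent.P269.Vir.Cyc

/-!
# Kur charts: holomorphic Kuranishi data on a smooth base with compact zero set
-/

set_option linter.unusedSectionVars false

namespace Vale.Agent.P269L.T

open Set Function Topology Filter Module P291Z P287Q.H3 P269 P269.Ch P269.Holo P269.Mono P269.Orb

section gen

variable {A A' W W' P V : Type} [NormedRing A] [NormedAlgebra ℂ A] [NormedAddCommGroup W]
  [NormedSpace ℂ W] [NormedRing A'] [NormedAlgebra ℂ A'] [NormedAddCommGroup W'] [NormedSpace ℂ W']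
  [AddCommGroup P] [Module ℂ P] [TopologicalSpace P] [NormedAddCommGroup V] [NormedSpace ℂ V]

/-- Manifolds are analytic sets. -/
theorem an_of_mfd [FiniteDimensional ℂ W] {T : Set W} {n : ℕ} {a : W} (h : MfdAt T n a) :
    An T a := by
  obtain ⟨ha, ψ, h1, h2⟩ := h
  obtain ⟨w, h3, h4, -, h5, -⟩ := h1.exists_inv
  rw [h2] at h3 h4 h5
  refine An.of_fd (f := fun z => z - (ψ (w z) : W))
    (analyticAt_id.sub (h1.an.comp_of_eq h3 h4)) ?_
  refine ((ev_emb IsEmbedding.subtypeVal).1 h5).mono fun z hz => ?_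
  rw [sub_eq_zero]
  exact ⟨fun b => (congrArg Subtype.val (hz ⟨z, b⟩ rfl)).symm, fun b => b ▸ (ψ (w z)).2⟩

/-- The data are holomorphic in the coordinates `i` of `P₀`. -/
structure Hol (D : KD A W P) (Z O : Set W) (v r : ℕ) (i : V →ₗ[ℂ] P) : Prop where
  rho : ∀ w, ∃ Φ : A → V, ∀ a, IsUnit a → AnalyticAt ℂ Φ a ∧ i (Φ a) = D.ρ a (i w)
  sec : ∃ Φ : W → V, ∀ x ∈ O, AnalyticAt ℂ Φ x ∧ i (Φ x) = D.s x
  van : ∀ x : O, HolSub Subtype.val {p : O × V | i p.2 ∈ D.van p.1} v x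
  obs : ∀ x : Z, HolSub Subtype.val {p : Z × V | i p.2 ∈ D.obs p.1} (v + r) x

/-- A good chart: `O` is an invariant open part of `S`, a manifold of dimension `dim A + d` with a
proper action with finite stabilisers which is generically free; the data are holomorphic and
the quotient of the zero set `Z` is compact. -/
structure Kur (D : KD A W P) (act : A → W → W) (Z S O : Set W) (v r d : ℕ) : Prop where
  dom : D.Dom act Z S O
  ok : D.Ok act O v r
  cyc : Cyc act O O d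
  isAct : IsAct act S
  le : ∀ x ∈ S, D.van x ≤ D.P₀
  cpt : CompactSpace (Quo act Z)
  hol : ∀ (V : Type) [NormedAddCommGroup V] [NormedSpace ℂ V] [FiniteDimensional ℂ V]
    (i : V →ₗ[ℂ] P), Injective i → LinearMap.range i = D.P₀ → Hol D Z O v r i

variable [FiniteDimensional ℂ A] [FiniteDimensional ℂ W] [FiniteDimensional ℂ A']
  [FiniteDimensional ℂ W'] {D : KD A W P} {act : A → W → W} {act' : A' → W' → W'}
  {Z S O : Set W} {Z' S' : Set W'} {v r d : ℕ}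

theorem Hol.pb {i : V →ₗ[ℂ] P} (h : Hol D Z O v r i) {θ : A' ≃L[ℂ] A} {f : W' ≃L[ℂ] W}
    (hθ : ∀ a, IsUnit a → IsUnit (θ a)) (hZ : ∀ x ∈ Z', f x ∈ Z) :
    Hol (D.pb θ f) Z' (f ⁻¹' O) v r i := by
  obtain ⟨Φ, h1⟩ := h.sec
  refine ⟨fun w => ?_, ⟨fun x => Φ (f x), fun x hx =>
    ⟨(h1 _ hx).1.comp (f.analyticAt x), (h1 _ hx).2⟩⟩, fun x => ?_, fun x => ?_⟩
  · obtain ⟨Ψ, h2⟩ := h.rho w
    exact ⟨fun a => Ψ (θ a), fun a ha => ⟨(h2 _ (hθ a ha)).1.comp (θ.analyticAt a),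
      (h2 _ (hθ a ha)).2⟩⟩
  · exact (h.van ⟨f x, x.2⟩).pull (u := fun y : f ⁻¹' O => (⟨f y, y.2⟩ : O))
      ((f.continuous.comp continuous_subtype_val).subtype_mk _).continuousAt
      ⟨f, f.analyticAt _, .of_forall fun _ => rfl⟩ (.of_forall fun _ _ => Iff.rfl)
  · exact (h.obs ⟨f x, hZ _ x.2⟩).pull (u := fun y : Z' => (⟨f y, hZ _ y.2⟩ : Z))
      ((f.continuous.comp continuous_subtype_val).subtype_mk _).continuousAt
      ⟨f, f.analyticAt _, .of_forall fun _ => rfl⟩ (.of_forall fun _ _ => Iff.rfl)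

namespace Kur

variable (h : Kur D act Z S O v r d)
include h

theorem mfd {x : W} (hx : x ∈ O) : MfdAt O (finrank ℂ A + d) x := ⟨hx, h.cyc.mfd ⟨x, hx⟩⟩

theorem an (x : W) (hx : x ∈ O) : An O x := an_of_mfd (h.mfd hx)

theorem isAS : IsAS h.dom.sp h.dom.pres.i := Kd.isAS h.dom h.an

theorem small : Small (2 * (d + finrank ℂ A)) O :=
  add_comm (finrank ℂ A) d ▸ dimLt_succ.1 (DimLt.of_mfd' h.cyc.mfd)

theorem dim : Dim h.dom.sp h.dom.pres.i d :=
  haveI := h.dom.isAct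
  dim_spA h.dom.orb fun _ _ => ⟨univ, univ_mem, h.small.mono inter_subset_right⟩

/-- shrinking the chart -/
theorem inter {U : Set W} (hU : IsOpen U) (e : Z ⊆ U)
    (hi : ∀ a, IsUnit a → ∀ x ∈ O ∩ U, act a x ∈ U) : Kur D act Z S (O ∩ U) v r d := by
  have a := h.dom.inter hU e hi
  refine ⟨a, h.ok.mono inter_subset_left, h.cyc.inter hU a.isAct.mem, h.isAct, h.le, h.cpt,
    fun V _ _ _ i b c => ?_⟩
  have k := h.hol V i b c
  exact ⟨k.rho, k.sec.imp fun _ l x hx => l x hx.1, fun x => (k.van ⟨x, x.2.1⟩).pull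
    (u := inclusion inter_subset_left) (continuous_inclusion _).continuousAt HolAt.self
    (.of_forall fun _ _ => Iff.rfl), k.obs⟩

/-- transport along a linear isomorphism of actions -/
theorem pb [IsAct act univ] [IsAct act' univ] {θ : A' ≃L[ℂ] A} {f : W' ≃L[ℂ] W}
    (l : LinI act' act θ f) (hZ : ∀ x, x ∈ Z' ↔ f x ∈ Z) (hS : ∀ x, x ∈ S' ↔ f x ∈ S) :
    Kur (D.pb θ f) act' Z' S' (f ⁻¹' O) v r d :=
  haveI := h.cpt
  ⟨l.dom h.dom hZ hS, h.ok.pb (Units.map l.hom) (Units.continuous_map θ.continuous) (fun _ => rfl)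
      f.continuous.continuousOn (fun _ => id) fun x _ a _ => l.eqv a x, l.cyc h.cyc,
    IsAct.mono inferInstance (subset_univ _) fun a ha x hx =>
      (hS _).2 (l.ivt h.isAct.mem a ha x ((hS x).1 hx)),
    fun x hx => h.le _ ((hS x).1 hx), (l.homeo hZ).symm.compactSpace,
    fun V _ _ _ i a b => (h.hol V i a b).pb (fun _ => l.isUnit) fun x => (hZ x).1⟩

section kp

variable {k : KP h.dom.sp} {i : k.P.W →ₗ[ℂ] P} (hk : h.dom.IsKP k i)
include hk

theorem hol' : Hol D Z O v r i := h.hol _ i hk.emb.injective hk.range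

theorem holS (t : h.dom.sp.T) : HolAt h.dom.pres.i k.s t :=
  let ⟨Φ, a⟩ := (h.hol' hk).sec
  ⟨Φ, (a _ (h.dom.pres.mem t)).1, .of_forall fun s =>
    hk.emb.injective ((hk.sec s).trans (a _ (h.dom.pres.mem s)).2.symm)⟩

theorem hvP : P287Q.H3.HV k.P h.dom.pres.i :=
  haveI := h.dom.isAct
  hv_of_an h.dom.orb k.P hk.top fun w =>
    let ⟨Φ, a⟩ := (h.hol' hk).rho w
    ⟨Φ, (a 1 isUnit_one).1, fun g => hk.emb.injective ((hk.eqv g w).trans (a _ g.isUnit).2.symm)⟩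

theorem v_eq (t : h.dom.sp.T) : k.v = v := by
  have a := hk.finrank_van t
  rw [inf_eq_left.2 (h.ok.fam.le _ (h.dom.pres.mem t))] at a
  exact a.symm.trans (h.ok.fam.rank _ (h.dom.pres.mem t))

theorem r_eq {t : h.dom.sp.T} (ht : t ∈ k.Zs) : k.r = r := by
  have a := hk.finrank_obs ht
  have b := hk.mem_Zs.1 ht
  rw [inf_eq_left.2 (h.ok.obs_le _ (h.dom.pres.mem t) b),
    h.ok.obs_rank _ (h.dom.pres.mem t) b, h.v_eq hk t] at a
  omega

theorem hvVan : P287Q.H3.HV k.vanB h.dom.pres.i :=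
  (h.hvP hk).sub h.isAS k.van_le fun t => (h.v_eq hk t).symm ▸ ((h.hol' hk).van t).pull (u := id)
    continuousAt_id HolAt.self (.of_forall fun s w => hk.van s w)

theorem anZ (x : W) (hx : x ∈ Z) : An Z x :=
  Kd.an_Z h.dom hk h.an (h.hvVan hk) (h.holS hk) x hx

theorem isAS_Z : IsAS (h.dom.sp.sub k.ZS k.isClosed_Zs.isLocallyClosed)
    fun s : k.ZS => h.dom.pres.i s :=
  (stSub _ _ _ h.isAS k.ZS _ fun t _ => Kd.an_mem h.isAS (h.hvVan hk) (h.holS hk t)).1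

theorem hvObs {B : Type} [NormedAddCommGroup B] [NormedSpace ℂ B] {Y : Ch.Sp} {c : Y.T → B}
    (hY : IsAS Y c) {m : Mor Y h.dom.sp} (hm : HM m c h.dom.pres.i) (hZ : ∀ t, m.f t ∈ k.Zs) :
    P287Q.H3.HV (k.obsB m hZ) c :=
  ((h.hvP hk).pb hm).sub hY (fun t => k.obs_le _ (hZ t)) fun t => by
    rw [h.v_eq hk (m.f t), h.r_eq hk (hZ t)]
    exact HolSub.pull (u := fun s => (⟨_, (h.dom.mem_Zs hk).1 (hZ s)⟩ : Z))
      ((h.hol' hk).obs ⟨_, (h.dom.mem_Zs hk).1 (hZ t)⟩)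
      ((h.dom.pres.emb.continuous.comp m.cf).subtype_mk _).continuousAt (hm t)
      (.of_forall fun s w => hk.obs _ (hZ s) w)

theorem hvObsZ : P287Q.H3.HV (k.obsB (h.dom.sp.subI k.ZS k.isClosed_Zs.isLocallyClosed) fun t => t.2)
    fun s : k.ZS => h.dom.pres.i s := h.hvObs hk (h.isAS_Z hk) (hm_subI _ _) _

variable [IsTopologicalAddGroup P] [ContinuousSMul ℂ P] [T2Space P]

/-- **The class of the old statement is the virtual class of the presentation.** -/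
theorem stm_iff {β : BM (Quo act Z)} :
    D.Stm act Z S β ↔ β = k.vir (Quo.incl act h.dom.sub) (h.dom.fnd d) :=
  haveI := h.isAct
  ⟨fun a => h.dom.eq_vir_fnd h.cyc hk (a.isV h.dom hk),
    fun a => a ▸ (h.dom.isV_fnd h.cyc hk).stm h.le⟩

end kp

theorem exists_isKP [IsTopologicalAddGroup P] [ContinuousSMul ℂ P] [T2Space P] :
    ∃ (k : KP h.dom.sp) (i : k.P.W →ₗ[ℂ] P), h.dom.IsKP k i ∧ k.v = v ∧ k.r = r :=
  h.dom.exists_isKP h.ok Subset.rfl

end Kur

end gen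

variable {S Λ R J K ι ν κ : Type} [Fintype S] [Fintype Λ] [Fintype R] [Fintype J] [Fintype K]
  [Fintype ι] [DecidableEq ι] [Fintype ν] [Fintype κ] {ch : Ch ι J} {F : Fam S Λ R J K}
  {e : K → ι → ℕ} {K₀ : Set K} {ℓ : R → ι → ℤ} {S₀ O : Set (ch.WF ν κ Λ)} {d : ℕ}

/-- **The charts of a family over a smooth base cycle are good.** -/
theorem kur_of_vd (h : ch.Std F e K₀ ℓ) (c : Vd F e S₀ O O d) [hc : CompactSpace (ModS F S₀)] :
    ∃ v, Kur (ch.kd ν κ F e) (actF F.toWt) (ch.solF ν κ F ∩ S₀) S₀ O v (ch.rk F ℓ K₀).toNat d := by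
  obtain ⟨v, hv⟩ := h.ok (ν := ν) (κ := κ)
  have a : O ⊆ ch.dom ν κ F e := fun x hx => c.dom.subset_dom c.adm hx
  have b := hv.mono a
  refine ⟨v, c.dom, b, c.cyc, isActF_of c.inv, fun _ _ => inf_le_left, hc,
    fun V _ _ _ i hi hr => ?_⟩
  have m : ∀ w, i w ∈ ch.polF F e := fun w => hr.le ⟨w, rfl⟩
  have k : ∀ N ≤ ch.polF F e, finrank ℂ (N.comap i) = finrank ℂ N := fun N hN => by
    rw [← finrank_map_of_inj (f := i) fun w _ => (map_eq_zero_iff i hi).1,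
      Submodule.map_comap_eq_of_le (hN.trans hr.ge)]
  refine ⟨fun w => ?_, ?_, fun x => ?_, fun x => ?_⟩
  · obtain ⟨Φ, h1, h2⟩ := Pol.exists_lift hi fun a : ch.AF ν κ S => ρF F a (i w)
    refine ⟨Φ, fun s hs => ⟨h1 s (Pol.an_rho analyticAt_id hs (m w)), ?_⟩⟩
    obtain ⟨u, hu⟩ := hr.ge (ρF_mem (F := F) (s := s) (m w))
    exact h2 s u hu ▸ hu
  · obtain ⟨Φ, h1, h2⟩ := Pol.exists_lift hi (sctF F e : ch.WF ν κ Λ → ch.P K)
    refine ⟨Φ, fun x _ => ⟨h1 x fun z t => AnM.an_sct analyticAt_const analyticAt_id t, ?_⟩⟩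
    obtain ⟨u, hu⟩ := hr.ge (h.fits.sctF_mem x)
    exact h2 x u hu ▸ hu
  · exact Obs.holSub_van (N := fun y : O => (vanM F e y.1).comap i) h.cuts
      continuous_subtype_val.continuousAt HolAt.self (.of_forall fun y => (a y.2).1.1.2.1) m
      (.of_forall fun _ _ => Iff.rfl) (.of_forall fun y => (k _ inf_le_left).trans
        (b.fam.rank _ y.2))
  · exact Obs.holSub_obs (N := fun y : ↥(ch.solF ν κ F ∩ S₀) => (obsM F e y.1).comap i) h
      continuous_subtype_val.continuousAt HolAt.self (.of_forall fun y => y.2.1) m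
      (.of_forall fun _ _ => Iff.rfl) (.of_forall fun y => (k _ inf_le_left).trans
        (b.obs_rank _ (c.dom.sub y.2) ((c.dom.zero _ (c.dom.sub y.2)).2 y.2)))

end Vale.Agent.P269L.T
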