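import Vale.Agent.P287Q.H3.Kd
import Vale.Agent.P269L.T.Pol
import Vale.Agent.P269L.T.Obs
import Vale.Agent.P269.Vir.Std

/-!
# The Kuranishi presentations of the moduli spaces are holomorphic
-/

set_option linter.unusedSectionVars false

namespace Vale.Agent.P269L.T

open Set Function Topology Filter Module P291Z P287Q.H3 P269 P269.Ch P269.Holo P269.Mono P269.Orb

variable {S Λ R J K ι ν κ : Type} [Fintype S] [Fintype Λ] [Fintype R] [Fintype J] [Fintype K]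
  [Fintype ι] [DecidableEq ι] [Fintype ν] [Fintype κ] {ch : Ch ι J} {F : Fam S Λ R J K}
  {e : K → ι → ℕ} {K₀ : Set K} {ℓ : R → ι → ℤ} {S₀ O : Set (ch.WF ν κ Λ)}

/-- **The bundles and the section of the chart are holomorphic.** -/
theorem bun (h : ch.Std F e K₀ ℓ) (hS : S₀ ⊆ ch.adm ν κ F) (hd : Ch.Dom F e S₀ O) {k : KP hd.sp}
    {i : k.P.W →ₗ[ℂ] ch.P K} (hk : hd.IsKP k i) (hO : ∀ x ∈ O, An O x) :
    HV k.P hd.pres.i ∧ HV k.vanB hd.pres.i ∧ (∀ t, HolAt hd.pres.i k.s t) ∧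
      HV (k.obsB (hd.sp.subI k.ZS k.isClosed_Zs.isLocallyClosed) fun t => t.2)
        fun s : k.ZS => hd.pres.i s := by
  have hY := Kd.isAS hd hO
  have h1 := hv_pol hd hk
  have h2 : ∀ t, hd.pres.i t ∈ ch.dom ν κ F e := fun t => hd.subset_dom hS (hd.pres.mem t)
  have h3 := Obs.hv_van hk h.cuts hY (fun _ => HolAt.self) (fun t => (h2 t).1.1.2.1) h1
  exact ⟨h1, h3, hol_sec hd hk, Obs.hv_obs hk h (fun _ => HolAt.self) h2 h1
    (stSub _ _ _ hY k.ZS _ fun t _ => Kd.an_mem hY h3 (hol_sec hd hk t)).1 (hm_subI _ _) _⟩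

end Vale.Agent.P269L.T
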